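import Mathlib

/-!
P027, prime patterns: Bonferroni's inequalities and Brun's pure sieve.
-/

open Finset

namespace Vale.Agent.P027S

variable {ι α : Type*}

/-- elementary symmetric sum -/
noncomputable def esy (P : Finset ι) (g : ι → ℝ) (k : ℕ) : ℝ :=
  ∑ S ∈ P.powersetCard k, ∏ p ∈ S, g p

theorem esy_zero (P : Finset ι) (g : ι → ℝ) : esy P g 0 = 1 := by simp [esy]

theorem esy_empty (g : ι → ℝ) (k : ℕ) : esy (∅ : Finset ι) g (k + 1) = 0 := by
  unfold esy
  rw [powersetCard_eq_empty.2 (by simp), sum_empty]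

theorem esy_nonneg {P : Finset ι} {g : ι → ℝ} (hg : ∀ p ∈ P, 0 ≤ g p) (k : ℕ) : 0 ≤ esy P g k :=
  sum_nonneg fun _ hS => prod_nonneg fun p hp => hg p ((mem_powersetCard.1 hS).1 hp)

theorem esy_insert [DecidableEq ι] {P : Finset ι} {a : ι} (ha : a ∉ P) (g : ι → ℝ) (k : ℕ) :
    esy (insert a P) g (k + 1) = esy P g (k + 1) + g a * esy P g k := by
  unfold esy
  rw [powersetCard_succ_insert ha, sum_union, sum_image, mul_sum]
  · congr 1
    refine sum_congr rfl fun S hS => ?_
    rw [prod_insert fun h => ha ((mem_powersetCard.1 hS).1 h)]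
  · intro S hS T hT h
    have hS' : a ∉ S := fun h => ha ((mem_powersetCard.1 hS).1 h)
    have hT' : a ∉ T := fun h => ha ((mem_powersetCard.1 hT).1 h)
    rw [← erase_insert hS', ← erase_insert hT']
    exact congrArg (fun U => erase U a) h
  · rw [disjoint_left]
    intro S hS hS2
    obtain ⟨T, -, rfl⟩ := mem_image.1 hS2
    exact ha ((mem_powersetCard.1 hS).1 (mem_insert_self a T))

/-- Bonferroni's inequality for products -/
theorem bonf [DecidableEq ι] (P : Finset ι) (g : ι → ℝ) (hg : ∀ p ∈ P, 0 ≤ g p ∧ g p ≤ 1) :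
    ∀ K : ℕ, |∏ p ∈ P, (1 - g p) - ∑ k ∈ range K, (-1) ^ k * esy P g k| ≤ esy P g K := by
  induction P using Finset.induction_on with
  | empty =>
    intro K
    rcases K with _ | K
    · simp [esy]
    · rw [sum_range_succ']
      simp [esy_empty, esy_zero]
  | insert a P ha ih =>
    intro K
    have hga := hg a (mem_insert_self a P)
    have hg' : ∀ p ∈ P, 0 ≤ g p ∧ g p ≤ 1 := fun p hp => hg p (mem_insert_of_mem hp)
    rcases K with _ | K
    · rw [esy_zero, range_zero, sum_empty, sub_zero, abs_of_nonneg]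
      · exact prod_le_one (fun p hp => by linarith [(hg p hp).2]) fun p hp => by
          linarith [(hg p hp).1]
      · exact prod_nonneg fun p hp => by linarith [(hg p hp).2]
    · have h1 := ih hg' (K + 1)
      have h2 := ih hg' K
      have e1 : ∑ k ∈ range (K + 1), (-1) ^ k * esy (insert a P) g k =
          ∑ k ∈ range (K + 1), (-1) ^ k * esy P g k -
            g a * ∑ k ∈ range K, (-1) ^ k * esy P g k := by
        rw [sum_range_succ', sum_range_succ' (fun k => (-1) ^ k * esy P g k), esy_zero, esy_zero,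
          mul_sum, add_sub_right_comm, ← sum_sub_distrib]
        congr 1
        refine sum_congr rfl fun k _ => ?_
        rw [esy_insert ha]
        ring
      rw [prod_insert ha, e1, esy_insert ha]
      have e2 : (1 - g a) * ∏ p ∈ P, (1 - g p) - (∑ k ∈ range (K + 1), (-1) ^ k * esy P g k -
          g a * ∑ k ∈ range K, (-1) ^ k * esy P g k) =
          (∏ p ∈ P, (1 - g p) - ∑ k ∈ range (K + 1), (-1) ^ k * esy P g k) -
            g a * (∏ p ∈ P, (1 - g p) - ∑ k ∈ range K, (-1) ^ k * esy P g k) := by ring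
      rw [e2]
      refine (abs_sub _ _).trans (add_le_add h1 ?_)
      rw [abs_mul, abs_of_nonneg hga.1]
      exact mul_le_mul_of_nonneg_left h2 hga.1

theorem esy_le [DecidableEq ι] (P : Finset ι) (g : ι → ℝ) (hg : ∀ p ∈ P, 0 ≤ g p) :
    ∀ k : ℕ, esy P g k ≤ (∑ p ∈ P, g p) ^ k / k.factorial := by
  induction P using Finset.induction_on with
  | empty =>
    intro k
    rcases k with _ | k
    · simp [esy]
    · simp [esy_empty]
  | insert a P ha ih =>
    intro k
    have hga := hg a (mem_insert_self a P)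
    have hg' : ∀ p ∈ P, 0 ≤ g p := fun p hp => hg p (mem_insert_of_mem hp)
    rcases k with _ | k
    · simp [esy_zero]
    · rw [esy_insert ha, sum_insert ha]
      have hs : 0 ≤ ∑ p ∈ P, g p := sum_nonneg hg'
      generalize ∑ p ∈ P, g p = s at *
      have h1 := ih hg' (k + 1)
      have h2 := mul_le_mul_of_nonneg_left (ih hg' k) hga
      have h3 : s ^ (k + 1) + (k + 1) * s ^ k * g a ≤ (g a + s) ^ (k + 1) := by
        have := pow_add_mul_le_add_pow hs (by positivity : 0 ≤ 2 * s + g a) (k + 1)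
        rw [add_comm (g a)]
        simpa using this
      have h4 : (0 : ℝ) < k.factorial := by exact_mod_cast k.factorial_pos
      have e : ((k + 1).factorial : ℝ) = (k + 1) * k.factorial := by
        rw [Nat.factorial_succ]; push_cast; ring
      calc _ ≤ s ^ (k + 1) / (k + 1).factorial + g a * (s ^ k / k.factorial) := add_le_add h1 h2
        _ = (s ^ (k + 1) + (k + 1) * s ^ k * g a) / (k + 1).factorial := by
            rw [e]; field_simp
        _ ≤ _ := by gcongr

theorem esy_ind (P : Finset ι) (b : ι → Prop) [DecidablePred b] (k : ℕ) :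
    esy P (fun p => if b p then 1 else 0) k =
      ∑ S ∈ P.powersetCard k, if ∀ p ∈ S, b p then 1 else 0 := by
  unfold esy
  refine sum_congr rfl fun S _ => ?_
  rw [prod_ite_zero]
  simp

/-- Bonferroni's inequality against a bounded weight -/
theorem bonf_sum [DecidableEq ι] (X : Finset α) (P : Finset ι) (bad : ι → α → Prop)
    [∀ p x, Decidable (bad p x)] (f : α → ℂ) (hf : ∀ x ∈ X, ‖f x‖ ≤ 1) (K : ℕ) :
    ‖∑ x ∈ X.filter (fun x => ∀ p ∈ P, ¬ bad p x), f x -
      ∑ k ∈ range K, (-1) ^ k * ∑ S ∈ P.powersetCard k,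
        ∑ x ∈ X.filter (fun x => ∀ p ∈ S, bad p x), f x‖ ≤
      ∑ S ∈ P.powersetCard K, ((X.filter (fun x => ∀ p ∈ S, bad p x)).card : ℝ) := by
  have key : ∀ x, |(if ∀ p ∈ P, ¬ bad p x then (1 : ℝ) else 0) - ∑ k ∈ range K, (-1) ^ k *
      ∑ S ∈ P.powersetCard k, if ∀ p ∈ S, bad p x then (1 : ℝ) else 0| ≤
      ∑ S ∈ P.powersetCard K, if ∀ p ∈ S, bad p x then (1 : ℝ) else 0 := by
    intro x
    have h := bonf P (fun p => if bad p x then (1 : ℝ) else 0)
      (fun p _ => by split_ifs <;> simp) K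
    simp only [esy_ind] at h
    have e : ∏ p ∈ P, (1 - if bad p x then (1 : ℝ) else 0) =
        if ∀ p ∈ P, ¬ bad p x then (1 : ℝ) else 0 := by
      split_ifs with h
      · exact prod_eq_one fun p hp => by simp [h p hp]
      · push Not at h
        obtain ⟨p, hp, hb⟩ := h
        exact prod_eq_zero hp (by simp [hb])
    rwa [e] at h
  have e1 : ∑ x ∈ X.filter (fun x => ∀ p ∈ P, ¬ bad p x), f x -
      ∑ k ∈ range K, (-1) ^ k * ∑ S ∈ P.powersetCard k,
        ∑ x ∈ X.filter (fun x => ∀ p ∈ S, bad p x), f x =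
      ∑ x ∈ X, (((if ∀ p ∈ P, ¬ bad p x then (1 : ℝ) else 0) - ∑ k ∈ range K, (-1) ^ k *
        ∑ S ∈ P.powersetCard k, if ∀ p ∈ S, bad p x then (1 : ℝ) else 0 : ℝ) : ℂ) * f x := by
    simp only [sum_filter]
    simp only [mul_sum]
    rw [sum_congr rfl fun k _ => sum_comm, sum_comm, ← sum_sub_distrib]
    refine sum_congr rfl fun x _ => ?_
    push_cast
    rw [sub_mul, sum_mul]
    congr 1
    · split_ifs <;> simp
    · refine sum_congr rfl fun k _ => ?_
      rw [sum_mul]
      refine sum_congr rfl fun S _ => ?_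
      split_ifs <;> simp
  have e2 : ∑ S ∈ P.powersetCard K, ((X.filter (fun x => ∀ p ∈ S, bad p x)).card : ℝ) =
      ∑ x ∈ X, ∑ S ∈ P.powersetCard K, if ∀ p ∈ S, bad p x then (1 : ℝ) else 0 := by
    rw [sum_comm]
    refine sum_congr rfl fun S _ => ?_
    rw [card_filter]
    push_cast
    rfl
  rw [e1, e2]
  refine (norm_sum_le _ _).trans (sum_le_sum fun x hx => ?_)
  rw [norm_mul, Complex.norm_real, Real.norm_eq_abs]
  exact (mul_le_of_le_one_right (abs_nonneg _) (hf x hx)).trans (key x)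

theorem sum_choose_le (n K : ℕ) : ∑ k ∈ range (K + 1), (n.choose k : ℝ) ≤ ((n : ℝ) + 1) ^ K := by
  rw [add_pow]
  refine sum_le_sum fun k hk => ?_
  have h1 : (n.choose k : ℝ) ≤ (n : ℝ) ^ k := by exact_mod_cast Nat.choose_le_pow n k
  have h2 : (1 : ℝ) ≤ K.choose k := by
    exact_mod_cast Nat.choose_pos (Nat.lt_succ_iff.1 (mem_range.1 hk))
  rw [one_pow, mul_one]
  exact h1.trans (le_mul_of_one_le_right (by positivity) h2)

/-- Brun's pure sieve -/
theorem brun [DecidableEq ι] (X : Finset α) (P : Finset ι) (bad : ι → α → Prop)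
    [∀ p x, Decidable (bad p x)] (g : ι → ℝ) (hg : ∀ p ∈ P, 0 ≤ g p ∧ g p ≤ 1) (T R : ℝ)
    (hT : 0 ≤ T) (K : ℕ) (h : ∀ S ⊆ P, S.card ≤ K →
      |((X.filter (fun x => ∀ p ∈ S, bad p x)).card : ℝ) - T * ∏ p ∈ S, g p| ≤ R) :
    |((X.filter (fun x => ∀ p ∈ P, ¬ bad p x)).card : ℝ) - T * ∏ p ∈ P, (1 - g p)| ≤
      2 * T * ((∑ p ∈ P, g p) ^ K / K.factorial) + ((P.card : ℝ) + 1) ^ K * R := by
  have hR : 0 ≤ R := (abs_nonneg _).trans (h ∅ (empty_subset _) (by simp))
  obtain ⟨c, hc⟩ : ∃ c : Finset ι → ℝ, ∀ S, c S =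
      ((X.filter (fun x => ∀ p ∈ S, bad p x)).card : ℝ) := ⟨_, fun _ => rfl⟩
  have h1 : |((X.filter (fun x => ∀ p ∈ P, ¬ bad p x)).card : ℝ) -
      ∑ k ∈ range K, (-1) ^ k * ∑ S ∈ P.powersetCard k, c S| ≤
      ∑ S ∈ P.powersetCard K, c S := by
    have h0 := bonf_sum X P bad (fun _ => 1) (fun _ _ => by simp) K
    simp only [sum_const, nsmul_eq_mul, mul_one] at h0
    simp only [hc]
    rw [← Real.norm_eq_abs, ← Complex.norm_real]
    push_cast
    exact h0
  have h2 := bonf P g hg K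
  have h3 : ∀ k ≤ K, |∑ S ∈ P.powersetCard k, c S - T * esy P g k| ≤ P.card.choose k * R := by
    intro k hk
    unfold esy
    rw [mul_sum, ← sum_sub_distrib, ← card_powersetCard, ← nsmul_eq_mul]
    refine (abs_sum_le_sum_abs _ _).trans (sum_le_card_nsmul _ _ _ fun S hS => ?_)
    rw [hc]
    exact h S (mem_powersetCard.1 hS).1 ((mem_powersetCard.1 hS).2.trans_le hk)
  have h4 : |∑ k ∈ range K, (-1) ^ k * ∑ S ∈ P.powersetCard k, c S -
      T * ∑ k ∈ range K, (-1) ^ k * esy P g k| ≤ ∑ k ∈ range K, P.card.choose k * R := by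
    rw [mul_sum, ← sum_sub_distrib]
    refine (abs_sum_le_sum_abs _ _).trans (sum_le_sum fun k hk => ?_)
    rw [mul_left_comm, ← mul_sub, abs_mul, abs_pow, abs_neg, abs_one, one_pow, one_mul]
    exact h3 k (mem_range.1 hk).le
  have h5 := h3 K le_rfl
  have h6 := mul_le_mul_of_nonneg_left (esy_le P g (fun p hp => (hg p hp).1) K) hT
  have h7 : |T * ∏ p ∈ P, (1 - g p) - T * ∑ k ∈ range K, (-1) ^ k * esy P g k| ≤
      T * esy P g K := by
    rw [← mul_sub, abs_mul, abs_of_nonneg hT]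
    exact mul_le_mul_of_nonneg_left h2 hT
  have h8 := mul_le_mul_of_nonneg_right (sum_choose_le P.card K) hR
  rw [sum_mul, sum_range_succ] at h8
  rw [abs_le] at h1 h4 h5 h7 ⊢
  constructor <;> linarith [h1.1, h1.2, h4.1, h4.2, h5.1, h5.2, h7.1, h7.2]

end Vale.Agent.P027S
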